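import Mathlib

/-!
Chapter C of P022-L3: `Γ₁(3)` is finitely generated; the element `z ∈ Γ₁(3)`, `z ≡ -1 mod N`
(`N` prime to 3).
-/

open scoped MatrixGroups
open Matrix CongruenceSubgroup

namespace Vale.Agent.P022.H914.L3

instance fg_SL2Z : Group.FG SL(2, ℤ) := by
  refine ⟨⟨{ModularGroup.S, ModularGroup.T}, ?_⟩⟩
  have := SpecialLinearGroup.SL2Z_generators
  simpa using this

/-- [FG] -/
theorem fg_Gamma1 (N : ℕ) [NeZero N] : Group.FG (Gamma1 N) := inferInstance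

/-- the element `z` -/
def zel (N : ℤ) : SL(2, ℤ) :=
  ⟨!![-1 - N ^ 2, N; -(N * (1 + 2 * N ^ 2)), -1 + 2 * N ^ 2], by
    rw [Matrix.det_fin_two_of]; ring⟩

theorem zel_mem (N : ℤ) (h : ¬ (3 : ℤ) ∣ N) : zel N ∈ Gamma1 3 := by
  have h2 : ((N : ZMod 3)) ^ 2 = 1 := by
    have h3 : (N : ZMod 3) ≠ 0 := by
      rw [Ne, ZMod.intCast_zmod_eq_zero_iff_dvd]
      exact_mod_cast h
    generalize (N : ZMod 3) = x at h3
    revert h3
    revert x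
    decide
  rw [Gamma1_mem]
  refine ⟨?_, ?_, ?_⟩
  · change (((-1 - N ^ 2 : ℤ)) : ZMod 3) = 1
    push_cast
    rw [h2]
    decide
  · change (((-1 + 2 * N ^ 2 : ℤ)) : ZMod 3) = 1
    push_cast
    rw [h2]
    decide
  · change (((-(N * (1 + 2 * N ^ 2)) : ℤ)) : ZMod 3) = 0
    push_cast
    rw [h2]
    have : (1 + 2 * 1 : ZMod 3) = 0 := by decide
    rw [this, mul_zero, neg_zero]

theorem not_three_dvd_two_pow (M : ℕ) : ¬ (3 : ℤ) ∣ 2 ^ M := by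
  intro h
  have h1 : (3 : ℤ) ∣ 2 := Int.Prime.dvd_pow' (by norm_num) (by exact_mod_cast h)
  norm_num at h1

/-- `≡ 1 mod N` -/
def Cong (N : ℤ) (γ : SL(2, ℤ)) : Prop :=
  N ∣ γ 0 0 - 1 ∧ N ∣ γ 0 1 ∧ N ∣ γ 1 0 ∧ N ∣ γ 1 1 - 1

/-- `(z - (-1)) / N` -/
def yel (N : ℤ) : Matrix (Fin 2) (Fin 2) ℤ := !![-N, 1; -(1 + 2 * N ^ 2), 2 * N]

theorem zel_eq (N : ℤ) : ((zel N : SL(2, ℤ)) : Matrix (Fin 2) (Fin 2) ℤ) = -1 + N • yel N := by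
  ext i j
  fin_cases i <;> fin_cases j
  · change -1 - N ^ 2 = -1 + N * -N
    ring
  · change N = -0 + N * 1
    ring
  · change -(N * (1 + 2 * N ^ 2)) = -0 + N * -(1 + 2 * N ^ 2)
    ring
  · change -1 + 2 * N ^ 2 = -1 + N * (2 * N)
    ring

/-- the commutator of `z` with anything is `≡ 1 mod N` -/
theorem zel_comm (N : ℤ) (g : SL(2, ℤ)) : Cong N ((zel N)⁻¹ * g⁻¹ * zel N * g) := by
  obtain ⟨W, hW⟩ : ∃ W : Matrix (Fin 2) (Fin 2) ℤ,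
      ((((zel N)⁻¹ * g⁻¹ * zel N * g : SL(2, ℤ)) : Matrix (Fin 2) (Fin 2) ℤ)) = 1 + N • W := by
    have h1 : (((zel N)⁻¹ : SL(2, ℤ)) : Matrix (Fin 2) (Fin 2) ℤ) *
        ((zel N : SL(2, ℤ)) : Matrix (Fin 2) (Fin 2) ℤ) = 1 := by
      exact congrArg Subtype.val (inv_mul_cancel (zel N))
    have h2 : ((g⁻¹ : SL(2, ℤ)) : Matrix (Fin 2) (Fin 2) ℤ) *
        (g : Matrix (Fin 2) (Fin 2) ℤ) = 1 := by
      exact congrArg Subtype.val (inv_mul_cancel g)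
    change ∃ W, (((zel N)⁻¹ : SL(2, ℤ)) : Matrix (Fin 2) (Fin 2) ℤ) *
      ((g⁻¹ : SL(2, ℤ)) : Matrix (Fin 2) (Fin 2) ℤ) *
      ((zel N : SL(2, ℤ)) : Matrix (Fin 2) (Fin 2) ℤ) * (g : Matrix (Fin 2) (Fin 2) ℤ) = 1 + N • W
    rw [zel_eq] at h1 ⊢
    generalize (((zel N)⁻¹ : SL(2, ℤ)) : Matrix (Fin 2) (Fin 2) ℤ) = zi at h1 ⊢
    generalize ((g⁻¹ : SL(2, ℤ)) : Matrix (Fin 2) (Fin 2) ℤ) = gi at h2 ⊢
    generalize (g : Matrix (Fin 2) (Fin 2) ℤ) = gg at h2 ⊢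
    generalize yel N = Y at h1 ⊢
    refine ⟨zi * gi * Y * gg - zi * Y, ?_⟩
    have h3 : -zi + N • (zi * Y) = 1 := by
      rw [← h1, mul_add, mul_neg, mul_one, Matrix.mul_smul]
    calc zi * gi * (-1 + N • Y) * gg = -(zi * (gi * gg)) + N • (zi * gi * Y * gg) := by
          rw [mul_add, add_mul, mul_neg, mul_one, neg_mul, mul_assoc zi gi gg, Matrix.mul_smul,
            Matrix.smul_mul]
      _ = -zi + N • (zi * gi * Y * gg) := by rw [h2, mul_one]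
      _ = (-zi + N • (zi * Y)) + N • (zi * gi * Y * gg - zi * Y) := by
          rw [smul_sub]; abel
      _ = 1 + N • (zi * gi * Y * gg - zi * Y) := by rw [h3]
  have e : ∀ i j, ((zel N)⁻¹ * g⁻¹ * zel N * g : SL(2, ℤ)) i j =
      (1 : Matrix (Fin 2) (Fin 2) ℤ) i j + N * W i j := by
    intro i j
    exact congrFun (congrFun hW i) j
  refine ⟨?_, ?_, ?_, ?_⟩
  · rw [e 0 0]; exact ⟨W 0 0, by simp⟩
  · rw [e 0 1]; exact ⟨W 0 1, by simp⟩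
  · rw [e 1 0]; exact ⟨W 1 0, by simp⟩
  · rw [e 1 1]; exact ⟨W 1 1, by simp⟩

end Vale.Agent.P022.H914.L3
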