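import Mathlib

/-!
Chapter C of P022-L3, rows (S1): cocycles with coefficients (right action),
the central element trick.
-/

namespace Vale.Agent.P022.H914.L3

variable {G P : Type*} [Group G] [AddCommGroup P]

/-- A right action of a group (or monoid) on `P` by additive maps. -/
structure RAct {Mo P : Type*} [Monoid Mo] [AddCommGroup P] (act : Mo → P → P) : Prop where
  one : ∀ p, act 1 p = p
  mul : ∀ a b p, act (a * b) p = act b (act a p)
  add : ∀ a p q, act a (p + q) = act a p + act a q

namespace RAct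

variable {Mo : Type*} [Monoid Mo] {act : Mo → P → P}

theorem zero (h : RAct act) (a : Mo) : act a 0 = 0 := by
  have := h.add a 0 0
  simpa using this

/-- The additive map of one element. -/
def hom (h : RAct act) (a : Mo) : P →+ P where
  toFun := act a
  map_zero' := h.zero a
  map_add' := h.add a

theorem neg (h : RAct act) (a : Mo) (p : P) : act a (-p) = -act a p := map_neg (h.hom a) p

theorem sub (h : RAct act) (a : Mo) (p q : P) : act a (p - q) = act a p - act a q :=
  map_sub (h.hom a) p q

theorem zsmul (h : RAct act) (a : Mo) (n : ℤ) (p : P) : act a (n • p) = n • act a p :=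
  map_zsmul (h.hom a) n p

theorem sum (h : RAct act) (a : Mo) {ι : Type*} (s : Finset ι) (f : ι → P) :
    act a (∑ i ∈ s, f i) = ∑ i ∈ s, act a (f i) :=
  map_sum (h.hom a) f s

end RAct

/-- Right cocycles. -/
def IsCoc (act : G → P → P) (u : G → P) : Prop := ∀ g h, u (g * h) = act h (u g) + u h

/-- The coboundary of `b`. -/
def cob (act : G → P → P) (b : P) : G → P := fun g => act g b - b

variable {act : G → P → P}

theorem cob_isCoc (h : RAct act) (b : P) : IsCoc act (cob act b) := by
  intro g k
  simp only [cob]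
  rw [h.mul, h.sub]
  abel

theorem IsCoc.one (h : RAct act) {u : G → P} (hu : IsCoc act u) : u 1 = 0 := by
  have := hu 1 1
  rw [h.one, mul_one] at this
  simpa using this

theorem IsCoc.add (h : RAct act) {u v : G → P} (hu : IsCoc act u) (hv : IsCoc act v) :
    IsCoc act (fun g => u g + v g) := by
  intro g k
  simp only
  rw [hu, hv, h.add]
  abel

theorem IsCoc.sub (h : RAct act) {u v : G → P} (hu : IsCoc act u) (hv : IsCoc act v) :
    IsCoc act (fun g => u g - v g) := by
  intro g k
  simp only
  rw [hu, hv, h.sub]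
  abel

theorem IsCoc.zsmul (h : RAct act) {u : G → P} (hu : IsCoc act u) (n : ℤ) :
    IsCoc act (fun g => n • u g) := by
  intro g k
  simp only
  rw [hu, h.zsmul, smul_add]

/-- [C1] -/
theorem two_cob (_h : RAct act) {v : G → P} (hv : IsCoc act v) (N : Set G)
    (hN : ∀ g ∈ N, v g = 0) (z : G) (hz : ∀ g, ∃ n ∈ N, z * g = g * z * n)
    (hNa : ∀ g ∈ N, ∀ p, act g p = p) (hneg : ∀ p, act z p = -p) (g : G) :
    (2 : ℤ) • v g = cob act (-(v z)) g := by
  obtain ⟨n, hn, e⟩ := hz g
  have h1 := hv z g
  rw [e, hv (g * z) n, hNa n hn, hN n hn, hv g z, hneg] at h1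
  simp only [cob]
  rw [_h.neg, two_smul]
  have : v z = act g (v z) + v g + v g := by
    have h2 : -v g + v z + 0 = act g (v z) + v g := h1
    calc v z = (-v g + v z + 0) + v g := by abel
      _ = act g (v z) + v g + v g := by rw [h2]
  calc v g + v g = (act g (v z) + v g + v g) - act g (v z) := by abel
    _ = v z - act g (v z) := by rw [← this]
    _ = -act g (v z) - -v z := by abel

/-- [C2] -/
theorem div_cob (h : RAct act) {u : G → P} (hu : IsCoc act u) (q : ℤ)
    (ht : ∀ a b : P, q • a = q • b → a = b) (N : Set G)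
    (hN : ∀ g ∈ N, ∃ a, u g = q • a)
    (hNa : ∀ g ∈ N, ∀ p, ∃ a, act g p = p + q • a)
    (z : G) (hz : ∀ g, ∃ n ∈ N, z * g = g * z * n)
    (hneg : ∀ p, ∃ a, act z p = -p + q • a) :
    ∃ c : G → P, IsCoc act c ∧ ∀ g, (2 : ℤ) • u g = cob act (-(u z)) g + q • c g := by
  have key : ∀ g, ∃ a, (2 : ℤ) • u g = cob act (-(u z)) g + q • a := by
    intro g
    obtain ⟨n, hn, e⟩ := hz g
    have h1 := hu z g
    obtain ⟨a1, e1⟩ := hN n hn
    obtain ⟨a2, e2⟩ := hNa n hn (u (g * z))
    obtain ⟨a3, e3⟩ := hneg (u g)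
    rw [e, hu (g * z) n, e2, e1, hu g z, e3] at h1
    refine ⟨a3 + a2 + a1, ?_⟩
    simp only [cob]
    rw [h.neg, two_smul, smul_add, smul_add]
    have h2 : u g = -u g + q • a3 + u z + q • a2 + q • a1 - act g (u z) := by
      rw [h1]; abel
    calc u g + u g = u g + (-u g + q • a3 + u z + q • a2 + q • a1 - act g (u z)) := by
          rw [← h2]
      _ = _ := by abel
  choose c hc using key
  refine ⟨c, ?_, hc⟩
  intro g k
  apply ht
  have e1 := hc (g * k)
  have e2 := hc g
  have e3 := hc k
  have hb := cob_isCoc h (-(u z)) g k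
  have huz := (hu.zsmul h 2) g k
  simp only at huz
  rw [smul_add, ← h.zsmul]
  have f1 : q • c (g * k) = (2 : ℤ) • u (g * k) - cob act (-(u z)) (g * k) := by
    rw [e1]; abel
  have f2 : q • c g = (2 : ℤ) • u g - cob act (-(u z)) g := by rw [e2]; abel
  have f3 : q • c k = (2 : ℤ) • u k - cob act (-(u z)) k := by rw [e3]; abel
  rw [f1, f2, f3, h.sub, huz, hb]
  abel

end Vale.Agent.P022.H914.L3
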