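import Vale.Agent.P022.H161.COp
import Vale.Agent.P022.H914.L3.ZEl

/-!
Chapter C of P022-L3: an integral cocycle (odd `w`) which is divisible by `2^(n+1)` on
`Γ₁(3) ∩ Γ(2^M)` satisfies `Div n`.
-/

open scoped MatrixGroups
open Matrix CongruenceSubgroup

namespace Vale.Agent.P022.H914.L3

open Vale.Agent.P022.H161.CLat Vale.Agent.P022.H161.COp Vale.Agent.P022.H420.L3
open Vale.Agent.P022.H527.L3 hiding M2

theorem mem_Gamma_iff (N : ℕ) (γ : SL(2, ℤ)) : γ ∈ Gamma N ↔ Cong N γ := by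
  rw [Gamma_mem, Cong]
  refine and_congr ?_ (and_congr ?_ (and_congr ?_ ?_))
  · rw [← ZMod.intCast_zmod_eq_zero_iff_dvd]
    push_cast
    rw [sub_eq_zero]
  · rw [← ZMod.intCast_zmod_eq_zero_iff_dvd]
  · rw [← ZMod.intCast_zmod_eq_zero_iff_dvd]
  · rw [← ZMod.intCast_zmod_eq_zero_iff_dvd]
    push_cast
    rw [sub_eq_zero]

/-- `z` as an element of `Γ₁(3)` -/
def zG (M : ℕ) : Gamma1 3 := ⟨zel (2 ^ M), zel_mem _ (not_three_dvd_two_pow M)⟩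

/-- a vector congruent to a vector modulo `m` -/
theorem exists_smul {ι : Type*} (m : ℕ) (p : ι → ℤ) (h : ∀ i, (m : ℤ) ∣ p i) :
    ∃ q : ι → ℤ, p = m • q := by
  choose q hq using h
  refine ⟨q, ?_⟩
  funext i
  rw [Pi.smul_apply, nsmul_eq_mul]
  exact hq i

theorem div_of_res {w : ℕ} (hw : Odd w) (n M : ℕ) (hn : n + 1 ≤ M)
    (u : Z1 (actM ℤ (AA (Gamma1 3) w)))
    (hu : ∀ γ : Gamma1 3, (γ : SL(2, ℤ)) ∈ Gamma (2 ^ M) → ∀ i,
      ((2 ^ (n + 1) : ℕ) : ℤ) ∣ (u : Gamma1 3 → Fin (w + 1) → ℤ) γ i) :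
    Div (actM ℤ (AA (Gamma1 3) w)) n (u : Gamma1 3 → Fin (w + 1) → ℤ) := by
  have hd : ((2 ^ (n + 1) : ℕ) : ℤ) ∣ ((2 ^ M : ℕ) : ℤ) := by
    exact_mod_cast pow_dvd_pow 2 hn
  refine two_cob ((Gamma (2 ^ M)).subgroupOf (Gamma1 3)) (zG M) (2 ^ (n + 1)) ?_ ?_ ?_ u.2 ?_
  · intro γ hγ p
    apply exists_smul
    intro i
    rw [Pi.sub_apply, actM_eq]
    have hγ' := (mem_Gamma_iff (2 ^ M) _).1 (Subgroup.mem_subgroupOf.1 hγ)
    obtain ⟨h00, h01, h10, h11⟩ := hγ'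
    have h1 := act_one_mod w (rho (Gamma1 3) γ) (2 ^ (n + 1)) (hd.trans h01) (hd.trans h10)
      (hd.trans h00) (hd.trans h11) p i
    rw [← ZMod.intCast_zmod_eq_zero_iff_dvd]
    push_cast at h1 ⊢
    rw [h1, sub_self]
  · intro p
    apply exists_smul
    intro i
    rw [Pi.add_apply, actM_eq]
    have e : ((rho (Gamma1 3) (zG M) : Matrix (Fin 2) (Fin 2) ℤ)) =
        -1 + (2 ^ M : ℤ) • yel (2 ^ M) := zel_eq (2 ^ M)
    have e0 : ∀ i j, ((2 ^ M : ℕ) : ℤ) ∣ (rho (Gamma1 3) (zG M) : Matrix (Fin 2) (Fin 2) ℤ) i j -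
        (-1 : Matrix (Fin 2) (Fin 2) ℤ) i j := by
      intro i j
      rw [e]
      refine ⟨yel (2 ^ M) i j, ?_⟩
      rw [Matrix.add_apply, Matrix.smul_apply, smul_eq_mul]
      push_cast
      ring
    have h1 := act_diag w (rho (Gamma1 3) (zG M)) (2 ^ (n + 1)) (-1) (-1)
      (hd.trans (by simpa using e0 0 1)) (hd.trans (by simpa using e0 1 0))
      (hd.trans (by simpa using e0 0 0)) (hd.trans (by simpa using e0 1 1)) p i
    rw [← ZMod.intCast_zmod_eq_zero_iff_dvd]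
    push_cast at h1 ⊢
    rw [h1, ← pow_add, Nat.add_sub_cancel' (Nat.lt_succ_iff.1 i.2), hw.neg_one_pow]
    ring
  · intro g
    refine ⟨(zG M)⁻¹ * g⁻¹ * zG M * g, ?_, by group⟩
    rw [Subgroup.mem_subgroupOf, mem_Gamma_iff]
    have := zel_comm (2 ^ M) (g : SL(2, ℤ))
    push_cast
    exact this
  · intro γ hγ
    exact exists_smul _ _ (hu γ (Subgroup.mem_subgroupOf.1 hγ))

end Vale.Agent.P022.H914.L3
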