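import Vale.Agent.P022.H472.Lit2
import Vale.Agent.P022.H724.L3.FamDef

/-!
Chapter C of P022-L3, [EPS]: in odd weight `⟨ℓ⟩ = ε(ℓ)` on `M_k(Γ₁(3))`.
-/

open scoped ModularForm MatrixGroups Manifold
open UpperHalfPlane Matrix CongruenceSubgroup

noncomputable section

namespace Vale.Agent.P022.H914.L3

open Vale.Agent.P022

theorem slash_neg_one (k : ℕ) (hk : Odd k) (f : ℍ → ℂ) :
    f ∣[(k : ℤ)] (-1 : SL(2, ℤ)) = -f := by
  funext τ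
  rw [ModularForm.SL_slash_apply]
  have h1 : (-1 : SL(2, ℤ)) • τ = τ := by
    rw [ModularGroup.SL_neg_smul, one_smul]
  have h2 : UpperHalfPlane.denom ((-1 : SL(2, ℤ)) : GL (Fin 2) ℝ) τ = -1 := by
    simp [UpperHalfPlane.denom]
  rw [h1]
  rw [show UpperHalfPlane.denom (((-1 : SL(2, ℤ)) : SL(2, ℤ)) : GL (Fin 2) ℝ) τ = -1 from h2]
  rw [_root_.zpow_neg, zpow_natCast, hk.neg_one_pow]
  simp

theorem dia_eps {k : ℕ} (hk : Odd k) (ℓ : PA 3) (f : MF 3 k) :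
    H783.dia k ℓ f = ((H724.L3.eps (ℓ.1 : ℤ) : ℤ) : ℂ) • f := by
  have h3 : ¬ (3 : ℕ) ∣ ℓ.1 := by
    intro h
    have := (Nat.prime_dvd_prime_iff_eq Nat.prime_three ℓ.2.1).1 h
    apply ℓ.2.2
    rw [← this]
    norm_num
  ext τ
  have h4 : (H783.dia k ℓ f : ℍ → ℂ) τ = dFun 3 k ℓ f τ := congrFun (H783.dia_coe k ℓ f) τ
  rw [h4]
  change _ = ((H724.L3.eps (ℓ.1 : ℤ) : ℤ) : ℂ) • f τ
  unfold H724.L3.eps
  by_cases h1 : ((ℓ.1 : ℤ)) % 3 = 1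
  · rw [if_pos h1, H783.dFun_eq ℓ (s := 1) (one_mem _) ?_ f]
    · rw [SlashAction.slash_one]
      simp
    · have : ((ℓ.1 : ℤ) : ZMod 3) = ((1 : ℤ) : ZMod 3) := by
        rw [ZMod.intCast_eq_intCast_iff]
        exact h1
      have e : ((ℓ.1 : ℕ) : ZMod 3) = 1 := by exact_mod_cast this
      rw [e]
      simp
  · have h2 : ((ℓ.1 : ℤ)) % 3 = 2 := by omega
    rw [if_neg h1, H783.dFun_eq ℓ (s := -1) ?_ ?_ f]
    · rw [slash_neg_one k hk]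
      simp
    · rw [Gamma0_mem]
      simp
    · have : ((ℓ.1 : ℤ) : ZMod 3) = ((-1 : ℤ) : ZMod 3) := by
        rw [ZMod.intCast_eq_intCast_iff]
        change (ℓ.1 : ℤ) % 3 = (-1) % 3
        omega
      have e : ((ℓ.1 : ℕ) : ZMod 3) = -1 := by exact_mod_cast this
      rw [e]
      simp

/-- in weight `i + 1`, `i` even: the generator `ℓ S_ℓ` is the integer `ε(ℓ) ℓ^i` -/
theorem gHk_inr_eps {i : ℕ} (hi : Even i) (ℓ : PA 3) :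
    gHk 3 (Sum.inr ℓ) i =
      (((H724.L3.eps (ℓ.1 : ℤ) * (ℓ.1 : ℤ) ^ i : ℤ)) : ℂ) • (1 : Module.End ℂ (MF 3 (i + 1))) := by
  apply LinearMap.ext
  intro f
  change ((ℓ.1 : ℂ) ^ i) • H783.dia (i + 1) ℓ f =
    (((H724.L3.eps (ℓ.1 : ℤ) * (ℓ.1 : ℤ) ^ i : ℤ)) : ℂ) • f
  rw [dia_eps (by exact hi.add_one) ℓ f, smul_smul]
  congr 1
  push_cast
  ring

end Vale.Agent.P022.H914.L3
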