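import Vale.Agent.P022.H914.L3.Ker
import Vale.Agent.P022.H161.COut
import Vale.Agent.P022.H420.L3.Wd

/-!
Chapter C of P022-L3, closed: the kernel condition `Fam.Ker` for every family whose maps `α n`
see the operators of `Wf (n+2) n w e`, `e ≤ w`.
-/

open scoped MatrixGroups
open Matrix CongruenceSubgroup

noncomputable section

namespace Vale.Agent.P022.H914.L3

open Vale.Agent.P022
open Vale.Agent.P022.H161.CLat Vale.Agent.P022.H161.COp Vale.Agent.P022.H420.L3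
open Vale.Agent.P022.H527.L3 hiding M2
open Vale.Agent.P022.H20.L3 Vale.Agent.P022.H239.L3

/-- **[C-ASM]** chapter C: the kernel condition. -/
theorem ker_all {w i : ℕ} (hw : Odd w) (hi : i = w + 1) (F : Fam i)
    (hF : ∀ n : ℕ, ∃ (T : ℕ → AddMonoid.End (L3.V 3 (n + 2) n))
      (β : ∀ e : Fin (w + 1), FreeAlgebra ℤ (Gen 3) →+*
        AddMonoid.End (H724.L3.Wf (n + 2) n w e)),
      (∀ ℓ, L3.Good 3 ℓ → ∀ φ : L3.V 3 (n + 2) n, L3.IsT 3 (n + 2) n ℓ φ (T ℓ φ)) ∧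
      (∀ (e : Fin (w + 1)) (ℓ : PA 3) (φ : H724.L3.Wf (n + 2) n w e),
        ((β e (FreeAlgebra.ι ℤ (Sum.inl ℓ)) φ : H724.L3.Wf (n + 2) n w e) :
          L3.V 3 (n + 2) n) = ((ℓ.1 : ℤ) ^ (e : ℕ)) • T ℓ.1 (φ : L3.V 3 (n + 2) n)) ∧
      (∀ (e : Fin (w + 1)) (ℓ : PA 3) (φ : H724.L3.Wf (n + 2) n w e),
        β e (FreeAlgebra.ι ℤ (Sum.inr ℓ)) φ =
          (H724.L3.eps ℓ.1 * (ℓ.1 : ℤ) ^ (w + 1)) • φ) ∧
      ∀ Q, F.α n Q = 0 → ∀ e, β e Q = 0) : F.Ker := by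
  have hδ : ∀ ℓ : PA 3, ∃ δ : SL(2, ℤ), L3.IsDel 3 0 (ℓ.1 : ℕ) δ := by
    intro ℓ
    apply H724.L3.exists_del 0
    have h1 : Nat.Coprime ℓ.1 (2 * 3) := (Nat.Prime.coprime_iff_not_dvd ℓ.2.1).2 ℓ.2.2
    exact_mod_cast (Nat.isCoprime_iff_coprime.2 h1)
  choose δ hδ using hδ
  obtain ⟨e, he, ho⟩ := H161.COut.out hi hw δ hδ
    (fun ℓ : PA 3 => rep3 (M := 0) (ℓ := ℓ.1) ℓ.2 (hδ ℓ))
  refine ker_core hw F (rhoR (fun ℓ : PA 3 => rep3 (M := 0) (ℓ := ℓ.1) ℓ.2 (hδ ℓ))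
    (fun ℓ : PA 3 => H724.L3.eps ℓ.1 * (ℓ.1 : ℤ) ^ (w + 1)) ℤ w) ⟨e, he, fun n Q hQ => ?_⟩ ?_
  · obtain ⟨R, hR⟩ := ho n Q hQ
    refine ⟨R, fun f => ?_⟩
    have h1 := LinearMap.congr_fun hR f
    rw [LinearMap.smul_apply, LinearMap.smul_apply, ← Int.cast_smul_eq_zsmul ℂ e,
      ← Int.cast_smul_eq_zsmul ℂ (2 ^ n)] at h1
    push_cast at h1
    exact h1
  · intro n Q hQ u γ hγ
    obtain ⟨T, β, hT, hl, hr, h0⟩ := hF n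
    exact word_dvd hw (by omega) δ hδ T hT β hl hr Q (h0 Q hQ) u γ hγ

end Vale.Agent.P022.H914.L3
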