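import Vale.Agent.P022.H724.L3.FamS
import Vale.Agent.P022.H914.L3.Ker2

/-!
P022-L3: the kernel condition for the family of helper724, and the weight data of helper20.
-/

open scoped MatrixGroups

noncomputable section

namespace Vale.Agent.P022.H914.L3

open Vale.Agent.P022
open Vale.Agent.P022.H724.L3

/-- the kernel condition for `famS` -/
theorem famS_ker (w : ℕ) (hw : Odd w) (v : ∀ n, H853.VD (n + 2) n) : (famS w v hw).Ker := by
  refine ker_all hw rfl (famS w v hw) fun n => ⟨(v n).T, fun e =>
    (Pi.evalRingHom (fun e : Fin (w + 1) => AddMonoid.End (Wf (n + 2) n w e)) e).comp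
      (al w v n).toRingHom, (v n).isT, fun e ℓ φ => al_inl w v n ℓ e φ, fun e ℓ φ => ?_,
    fun Q hQ e => ?_⟩
  · exact Subtype.ext (al_inr_apply w v n ℓ e φ)
  · exact congrFun (show al w v n Q = 0 from hQ) e

/-- families with the kernel condition for all even `i > 0` -/
theorem fam_ker (hG : L3.GALStmt) (hH : L3.HEXStmt) :
    ∀ i, Even i → 0 < i → ∃ F : H20.L3.Fam i, F.Ker :=
  H724.L3.fam_ker hG hH fun w hw v => famS_ker w hw v

end Vale.Agent.P022.H914.L3
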