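import Vale.Agent.P022.H914.L3.DivRes
import Vale.Agent.P022.H914.L3.Eps
import Vale.Agent.P022.H20.L3.WdLim
import Vale.Agent.P022.H420.L3.Tw

/-!
Chapter C of P022-L3: the kernel condition `Fam.Ker` from the lattice half (`hout`) and the
restriction to `V(3, M, n)` (`hwd`).
-/

open scoped MatrixGroups
open Matrix CongruenceSubgroup

noncomputable section

namespace Vale.Agent.P022.H914.L3

open Vale.Agent.P022
open Vale.Agent.P022.H161.CLat Vale.Agent.P022.H161.COp Vale.Agent.P022.H420.L3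
open Vale.Agent.P022.H527.L3 hiding M2
open Vale.Agent.P022.H20.L3 Vale.Agent.P022.H239.L3

theorem inP_of {M : ℕ} {γ : SL(2, ℤ)} (h1 : γ ∈ Gamma1 3) (h2 : γ ∈ Gamma (2 ^ M)) :
    InP M γ := by
  have h3 := inP_zero.2 h1
  obtain ⟨a10, -, a11⟩ := h3
  obtain ⟨-, b01, b10, b11⟩ := (mem_Gamma_iff (2 ^ M) γ).1 h2
  have hc : IsCoprime (3 : ℤ) (2 ^ M) := by
    apply IsCoprime.pow_right
    exact ⟨1, -1, by norm_num⟩
  have hk : ∀ x : ℤ, ((3 * 2 ^ 0 : ℕ) : ℤ) ∣ x → ((2 ^ M : ℕ) : ℤ) ∣ x →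
      ((3 * 2 ^ M : ℕ) : ℤ) ∣ x := by
    intro x hx hy
    push_cast at hx hy ⊢
    exact hc.mul_dvd hx hy
  exact ⟨hk _ a10 b10, b01, hk _ a11 b11⟩

theorem ker_core {w i : ℕ} (hw : Odd w) (F : Fam i)
    (ρ : FreeAlgebra ℤ (Gen 3) →ₐ[ℤ] AddMonoid.End (Z1 (actM ℤ (AA (Gamma1 3) w))))
    (hout : ∃ e : ℤ, e ≠ 0 ∧ ∀ (n : ℕ) (Q : FreeAlgebra ℤ (Gen 3)),
      (∀ u, Div (actM ℤ (AA (Gamma1 3) w)) n
        ((ρ Q u : Z1 (actM ℤ (AA (Gamma1 3) w))) : Gamma1 3 → Fin (w + 1) → ℤ)) →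
      ∃ R : FreeAlgebra ℤ (Gen 3), ∀ f : MF 3 (i + 1),
        (e : ℂ) • FreeAlgebra.lift ℤ (fun s => gHk 3 s i) Q f =
          (2 ^ n : ℂ) • FreeAlgebra.lift ℤ (fun s => gHk 3 s i) R f)
    (hwd : ∀ (n : ℕ) (Q : FreeAlgebra ℤ (Gen 3)), F.α n Q = 0 →
      ∀ (u : Z1 (actM ℤ (AA (Gamma1 3) w))) (γ : Gamma1 3), InP (n + 2) (γ : SL(2, ℤ)) →
      ∃ p, ((ρ Q u : Z1 (actM ℤ (AA (Gamma1 3) w))) : Gamma1 3 → Fin (w + 1) → ℤ) γ =
        (2 ^ n : ℤ) • p) : F.Ker := by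
  obtain ⟨e, he, ho⟩ := hout
  apply F.ker_of 1
  refine ⟨e, he, fun n Q hQ => ?_⟩
  obtain ⟨R, hR⟩ := ho n Q (fun u => div_of_res hw n (n + 3) (by omega) _ (fun γ hγ j => by
    obtain ⟨p, hp⟩ := hwd (n + 1) Q hQ u γ (inP_of γ.2 hγ)
    rw [hp, Pi.smul_apply, smul_eq_mul]
    push_cast
    exact dvd_mul_right _ _))
  refine ⟨wT i R, ?_⟩
  apply Subtype.ext
  apply LinearMap.ext
  intro f
  have h1 : ((((e : TR i) * wT i Q : TR i)) : Module.End ℂ (MF 3 (i + 1))) =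
      ((e : ℤ) : Module.End ℂ (MF 3 (i + 1))) * FreeAlgebra.lift ℤ (fun s => gHk 3 s i) Q := by
    rfl
  have h2 : ((((2 : TR i) ^ n * wT i R : TR i)) : Module.End ℂ (MF 3 (i + 1))) =
      (2 : Module.End ℂ (MF 3 (i + 1))) ^ n * FreeAlgebra.lift ℤ (fun s => gHk 3 s i) R := by
    rfl
  rw [h1, h2]
  have h3 := hR f
  have e1 : ∀ (m : ℤ) (x : MF 3 (i + 1)),
      ((m : ℤ) : Module.End ℂ (MF 3 (i + 1))) x = (m : ℂ) • x := by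
    intro m x
    rw [← zsmul_one, LinearMap.smul_apply, Int.cast_smul_eq_zsmul]
    rfl
  rw [Module.End.mul_apply, Module.End.mul_apply, e1, h3]
  have e2 : ((2 : Module.End ℂ (MF 3 (i + 1))) ^ n) =
      (((2 ^ n : ℤ) : ℤ) : Module.End ℂ (MF 3 (i + 1))) := by
    push_cast
    rfl
  rw [e2, e1]
  push_cast
  rfl

end Vale.Agent.P022.H914.L3
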