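import Vale.Agent.P022.H914.L3.Coc

/-!
Chapter C of P022-L3: the lattice half (saturation).
-/

namespace Vale.Agent.P022.H914.L3

/-- The saturation of a submodule of a finitely generated abelian group has bounded index. -/
theorem exists_exp {E : Type*} [AddCommGroup E] [Module.Finite ℤ E] (T : Submodule ℤ E) :
    ∃ e : ℤ, e ≠ 0 ∧ ∀ x : E, (∃ m : ℤ, m ≠ 0 ∧ m • x ∈ T) → e • x ∈ T := by
  let Ts : Submodule ℤ E :=
    { carrier := {x | ∃ m : ℤ, m ≠ 0 ∧ m • x ∈ T}
      zero_mem' := ⟨1, one_ne_zero, by simp⟩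
      add_mem' := by
        rintro a b ⟨m, hm, h1⟩ ⟨k, hk, h2⟩
        refine ⟨m * k, mul_ne_zero hm hk, ?_⟩
        rw [smul_add]
        refine T.add_mem ?_ ?_
        · rw [mul_comm, mul_smul]; exact T.smul_mem _ h1
        · rw [mul_smul]; exact T.smul_mem _ h2
      smul_mem' := by
        rintro c a ⟨m, hm, h1⟩
        refine ⟨m, hm, ?_⟩
        rw [smul_smul, mul_comm, mul_smul]
        exact T.smul_mem _ h1 }
  have hfg : Ts.FG := IsNoetherian.noetherian Ts
  obtain ⟨S, hS⟩ := hfg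
  have hmem : ∀ x ∈ S, ∃ m : ℤ, m ≠ 0 ∧ m • x ∈ T := by
    intro x hx
    have : x ∈ Ts := by rw [← hS]; exact Submodule.subset_span hx
    exact this
  choose! m hm0 hm using hmem
  refine ⟨∏ x ∈ S, m x, Finset.prod_ne_zero_iff.2 fun x hx => hm0 x hx, ?_⟩
  intro x hx
  have hx' : x ∈ Ts := hx
  rw [← hS] at hx'
  induction hx' using Submodule.span_induction with
  | mem y hy =>
    have hd : m y ∣ ∏ x ∈ S, m x := Finset.dvd_prod_of_mem m hy
    obtain ⟨k, hk⟩ := hd
    rw [hk, mul_comm, mul_smul]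
    exact T.smul_mem _ (hm y hy)
  | zero => simp
  | add a b ha hb iha ihb =>
    rw [smul_add]
    refine T.add_mem (iha ?_) (ihb ?_)
    · have : a ∈ Ts := by rw [← hS]; exact ha
      exact this
    · have : b ∈ Ts := by rw [← hS]; exact hb
      exact this
  | smul c a ha iha =>
    rw [smul_comm]
    refine T.smul_mem _ (iha ?_)
    have : a ∈ Ts := by rw [← hS]; exact ha
    exact this

/-- Division of a linear map by an integer. -/
theorem exists_div {L : Type*} [AddCommGroup L] (m : ℤ)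
    (ht : ∀ x y : L, m • x = m • y → x = y) (f : L →ₗ[ℤ] L)
    (hf : ∀ x, ∃ y, f x = m • y) : ∃ φ : L →ₗ[ℤ] L, f = m • φ := by
  choose φ hφ using hf
  refine ⟨{ toFun := φ, map_add' := ?_, map_smul' := ?_ }, ?_⟩
  · intro x y
    apply ht
    rw [← hφ, smul_add, ← hφ, ← hφ, map_add]
  · intro c x
    apply ht
    rw [← hφ, map_smul, hφ, RingHom.id_apply, smul_comm]
  · ext x
    exact hφ x

section clat

variable {M : Type*} [AddCommGroup M] (B : Submodule ℤ M)

/-- The saturation. -/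
def satur : Submodule ℤ M where
  carrier := {x | ∃ m : ℤ, m ≠ 0 ∧ m • x ∈ B}
  zero_mem' := ⟨1, one_ne_zero, by simp⟩
  add_mem' := by
    rintro a b ⟨m, hm, h1⟩ ⟨k, hk, h2⟩
    refine ⟨m * k, mul_ne_zero hm hk, ?_⟩
    rw [smul_add]
    refine B.add_mem ?_ ?_
    · rw [mul_comm, mul_smul]; exact B.smul_mem _ h1
    · rw [mul_smul]; exact B.smul_mem _ h2
  smul_mem' := by
    rintro c a ⟨m, hm, h1⟩
    refine ⟨m, hm, ?_⟩
    rw [smul_smul, mul_comm, mul_smul]
    exact B.smul_mem _ h1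

theorem mem_satur {x : M} : x ∈ satur B ↔ ∃ m : ℤ, m ≠ 0 ∧ m • x ∈ B := Iff.rfl

theorem le_satur : B ≤ satur B := fun x hx => ⟨1, one_ne_zero, by simpa using hx⟩

theorem quot_tf (m : ℤ) (hm : m ≠ 0) (x y : M ⧸ satur B) (h : m • x = m • y) : x = y := by
  obtain ⟨a, rfl⟩ := Submodule.mkQ_surjective _ x
  obtain ⟨b, rfl⟩ := Submodule.mkQ_surjective _ y
  rw [← map_smul, ← map_smul, ← sub_eq_zero, ← map_sub, ← smul_sub] at h
  rw [← sub_eq_zero, ← map_sub]
  rw [Submodule.mkQ_apply, Submodule.Quotient.mk_eq_zero] at h ⊢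
  obtain ⟨k, hk, h1⟩ := h
  refine ⟨k * m, mul_ne_zero hk hm, ?_⟩
  rwa [mul_smul]

instance : IsAddTorsionFree (M ⧸ satur B) where
  nsmul_right_injective n hn x y h := by
    apply quot_tf B n (by exact_mod_cast hn)
    simpa using h

theorem satur_map (f : M →ₗ[ℤ] M) (hf : ∀ b ∈ B, f b ∈ B) : satur B ≤ (satur B).comap f := by
  rintro x ⟨m, hm, h⟩
  refine ⟨m, hm, ?_⟩
  rw [← map_smul]
  exact hf _ h

/-- [C-LAT] (2): if `2 Q M ⊆ B + 2^n M` then `e Q ≡ 2^n R` modulo torsion over `B`, with `e`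
independent of `n` and `Q`. -/
theorem clat [Module.Finite ℤ M] {H : Type*} [AddCommGroup H] (ρ : H →+ (M →ₗ[ℤ] M))
    (hB : ∀ Q, ∀ b ∈ B, ρ Q b ∈ B) :
    ∃ e : ℤ, e ≠ 0 ∧ ∀ (q : ℤ) (Q : H), q ≠ 0 →
      (∀ u : M, ∃ b ∈ B, ∃ c : M, (2 : ℤ) • ρ Q u = b + q • c) →
      ∃ R : H, ∀ u, ∃ m : ℤ, m ≠ 0 ∧ m • (e • ρ Q u - q • ρ R u) ∈ B := by
  let ρL : H → ((M ⧸ satur B) →ₗ[ℤ] (M ⧸ satur B)) := fun Q =>
    (satur B).mapQ (satur B) (ρ Q) (satur_map B _ (hB Q))
  have hρL : ∀ Q u, ρL Q ((satur B).mkQ u) = (satur B).mkQ (ρ Q u) := fun Q u => rfl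
  let T : Submodule ℤ ((M ⧸ satur B) →ₗ[ℤ] (M ⧸ satur B)) :=
    { carrier := {φ | ∃ R : H, φ = ρL R}
      zero_mem' := ⟨0, by
        ext x
        change 0 = ρL 0 ((satur B).mkQ x)
        rw [hρL, map_zero, LinearMap.zero_apply, map_zero]⟩
      add_mem' := by
        rintro _ _ ⟨R, rfl⟩ ⟨S, rfl⟩
        refine ⟨R + S, ?_⟩
        ext x
        change ρL R ((satur B).mkQ x) + ρL S ((satur B).mkQ x) = ρL (R + S) ((satur B).mkQ x)
        rw [hρL, hρL, hρL, map_add, LinearMap.add_apply, map_add]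
      smul_mem' := by
        rintro c _ ⟨R, rfl⟩
        refine ⟨c • R, ?_⟩
        ext x
        change c • ρL R ((satur B).mkQ x) = ρL (c • R) ((satur B).mkQ x)
        rw [hρL, hρL, map_zsmul, LinearMap.smul_apply, map_smul] }
  have : Module.Finite ℤ (M ⧸ satur B) := inferInstance
  have : Module.Free ℤ (M ⧸ satur B) := inferInstance
  have : Module.Finite ℤ ((M ⧸ satur B) →ₗ[ℤ] (M ⧸ satur B)) := inferInstance
  obtain ⟨e, he, hT⟩ := exists_exp T
  refine ⟨2 * e, mul_ne_zero two_ne_zero he, ?_⟩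
  intro q Q hq hQ
  obtain ⟨φ, hφ⟩ : ∃ φ : (M ⧸ satur B) →ₗ[ℤ] (M ⧸ satur B), (2 : ℤ) • ρL Q = q • φ := by
    apply exists_div q (quot_tf B q hq)
    intro x
    obtain ⟨u, rfl⟩ := Submodule.mkQ_surjective _ x
    obtain ⟨b, hb, c, hc⟩ := hQ u
    refine ⟨(satur B).mkQ c, ?_⟩
    rw [LinearMap.smul_apply, hρL, ← map_smul, hc, map_add, map_smul]
    have : (satur B).mkQ b = 0 := by
      rw [Submodule.mkQ_apply, Submodule.Quotient.mk_eq_zero]
      exact le_satur B hb
    rw [this, zero_add]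
  have h1 : e • φ ∈ T := by
    apply hT
    refine ⟨q, hq, 2 • Q, ?_⟩
    rw [← hφ]
    ext x
    change (2 : ℤ) • ρL Q ((satur B).mkQ x) = ρL (2 • Q) ((satur B).mkQ x)
    rw [hρL, hρL, map_nsmul, LinearMap.smul_apply, ← map_smul]
    norm_cast
  obtain ⟨R, hR⟩ := h1
  refine ⟨R, fun u => ?_⟩
  have h2 : (2 * e) • ρL Q = q • ρL R := by
    rw [← hR, mul_comm, mul_smul, hφ, smul_comm]
  have h3 := congrArg (fun f => f ((satur B).mkQ u)) h2
  simp only [LinearMap.smul_apply] at h3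
  rw [hρL, hρL, ← (satur B).mkQ.map_smul, ← (satur B).mkQ.map_smul, ← sub_eq_zero,
    ← (satur B).mkQ.map_sub, Submodule.mkQ_apply, Submodule.Quotient.mk_eq_zero] at h3
  exact h3

end clat

section Z1

variable {G P : Type*} [Group G] [AddCommGroup P] {act : G → P → P}

/-- The cocycles. -/
def Z1 (h : RAct act) : Submodule ℤ (G → P) where
  carrier := {u | IsCoc act u}
  zero_mem' := by
    intro g k
    simp [h.zero]
  add_mem' := fun hu hv => hu.add h hv
  smul_mem' := fun n _ hu => hu.zsmul h n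

theorem mem_Z1 (h : RAct act) {u : G → P} : u ∈ Z1 h ↔ IsCoc act u := Iff.rfl

/-- A cocycle that vanishes on generators vanishes. -/
theorem coc_eq_zero (h : RAct act) {u : G → P} (hu : IsCoc act u) (S : Set G)
    (hS : Subgroup.closure S = ⊤) (hz : ∀ s ∈ S, u s = 0) : u = 0 := by
  funext g
  have hg : g ∈ Subgroup.closure S := by rw [hS]; trivial
  induction hg using Subgroup.closure_induction with
  | mem x hx => exact hz x hx
  | one => exact hu.one h
  | mul x y _ _ hx hy =>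
    rw [hu, hx, hy]
    simp [h.zero]
  | inv x _ hx =>
    have h1 := hu x x⁻¹
    rw [mul_inv_cancel, hu.one h, hx] at h1
    simp only [Pi.zero_apply, h.zero, zero_add] at h1 ⊢
    exact h1.symm

/-- [C5] The cocycles are a finitely generated group. -/
theorem Z1_finite (h : RAct act) [Group.FG G] [Module.Finite ℤ P] :
    Module.Finite ℤ (Z1 h) := by
  obtain ⟨S, hS⟩ := (Group.fg_def.1 (inferInstance : Group.FG G))
  let f : Z1 h →ₗ[ℤ] (S → P) :=
    { toFun := fun u s => u.1 s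
      map_add' := fun _ _ => rfl
      map_smul' := fun _ _ => rfl }
  have : IsNoetherian ℤ (S → P) := inferInstance
  refine Module.Finite.of_injective f ?_
  rw [injective_iff_map_eq_zero]
  intro u hu
  apply Subtype.ext
  refine coc_eq_zero h u.2 (S : Set G) hS ?_
  intro s hs
  exact congrFun hu ⟨s, hs⟩

/-- The coboundaries. -/
def B1 (h : RAct act) : Submodule ℤ (Z1 h) where
  carrier := {u | ∃ b, u.1 = cob act b}
  zero_mem' := ⟨0, by funext g; simp [cob, h.zero]⟩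
  add_mem' := by
    rintro u v ⟨b, hb⟩ ⟨c, hc⟩
    refine ⟨b + c, ?_⟩
    funext g
    have e1 := congrFun hb g
    have e2 := congrFun hc g
    simp only [cob] at e1 e2 ⊢
    change u.1 g + v.1 g = _
    rw [e1, e2, h.add]
    abel
  smul_mem' := by
    rintro n u ⟨b, hb⟩
    refine ⟨n • b, ?_⟩
    funext g
    have e1 := congrFun hb g
    simp only [cob] at e1 ⊢
    change n • u.1 g = _
    rw [e1, h.zsmul, smul_sub]

end Z1

end Vale.Agent.P022.H914.L3
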